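import Mathlib

set_option autoImplicit false

namespace Vale.Agent.P121

open scoped RealInnerProductSpace

variable {V : Type*} [NormedAddCommGroup V] [InnerProductSpace ℝ V]

/-- minus the gradient of the Newtonian kernel. -/
noncomputable def hh (r : V) : V := (‖r‖ ^ 3)⁻¹ • r

lemma hh_neg (r : V) : hh (-r) = - hh r := by
  simp [hh]

/-- Key inequality: the Newton kernel is semiconvex with the sharp constant. -/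
lemma key_ineq (r s : V) (hr : r ≠ 0) (hs : s ≠ 0) :
    ‖r‖⁻¹ - ⟪hh r, s - r⟫ - (1/2) * ‖s - r‖ ^ 2 * (‖r‖ ^ 3)⁻¹ ≤ ‖s‖⁻¹ := by
  have ha : 0 < ‖r‖ := norm_pos_iff.mpr hr
  have hb : 0 < ‖s‖ := norm_pos_iff.mpr hs
  have h1 : ‖s - r‖ ^ 2 = ‖s‖ ^ 2 - 2 * ⟪r, s⟫ + ‖r‖ ^ 2 := by
    rw [norm_sub_sq_real, real_inner_comm]
  have h2 : ⟪hh r, s - r⟫ = (‖r‖ ^ 3)⁻¹ * (⟪r, s⟫ - ‖r‖ ^ 2) := by
    rw [hh, inner_smul_left, inner_sub_right, real_inner_self_eq_norm_sq]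
    simp
  rw [h1, h2]
  set a := ‖r‖
  set b := ‖s‖
  set x := ⟪r, s⟫
  have h3 : a⁻¹ - (a ^ 3)⁻¹ * (x - a ^ 2) - 1 / 2 * (b ^ 2 - 2 * x + a ^ 2) * (a ^ 3)⁻¹
      = (3 * a ^ 2 - b ^ 2) / (2 * a ^ 3) := by
    field_simp
    ring
  rw [h3, div_le_iff₀ (by positivity), inv_mul_eq_div, le_div_iff₀ hb]
  nlinarith [mul_nonneg (sq_nonneg (a - b)) (by positivity : (0:ℝ) ≤ 2 * a + b)]

lemma hh_diff_sq (r s : V) (hr : r ≠ 0) (hs : s ≠ 0) :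
    ‖hh r - hh s‖ ^ 2 = (‖r‖ ^ 4)⁻¹ + (‖s‖ ^ 4)⁻¹ - 2 * ⟪r, s⟫ * (‖r‖ ^ 3 * ‖s‖ ^ 3)⁻¹ := by
  have ha : 0 < ‖r‖ := norm_pos_iff.mpr hr
  have hb : 0 < ‖s‖ := norm_pos_iff.mpr hs
  rw [norm_sub_sq_real, hh, hh, norm_smul, norm_smul, inner_smul_left, inner_smul_right]
  simp only [norm_inv, norm_pow, norm_norm, conj_trivial]
  field_simp
  ring

lemma diff_sq (r s : V) : ‖r - s‖ ^ 2 = ‖r‖ ^ 2 + ‖s‖ ^ 2 - 2 * ⟪r, s⟫ := by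
  rw [norm_sub_sq_real]; ring

/-- upper Lipschitz bound -/
lemma hh_upper (r s : V) (m : ℝ) (hm : 0 < m) (hr : m ≤ ‖r‖) (hs : m ≤ ‖s‖) :
    ‖hh r - hh s‖ ≤ 2 / m ^ 3 * ‖r - s‖ := by
  have ha : 0 < ‖r‖ := lt_of_lt_of_le hm hr
  have hb : 0 < ‖s‖ := lt_of_lt_of_le hm hs
  have hr0 : r ≠ 0 := norm_pos_iff.mp ha
  have hs0 : s ≠ 0 := norm_pos_iff.mp hb
  have hx : ⟪r, s⟫ ≤ ‖r‖ * ‖s‖ := real_inner_le_norm r s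
  have key : ‖hh r - hh s‖ ^ 2 ≤ ((‖r‖ + ‖s‖) / (‖r‖ ^ 2 * ‖s‖ ^ 2)) ^ 2 * ‖r - s‖ ^ 2 := by
    rw [hh_diff_sq r s hr0 hs0, diff_sq]
    set a := ‖r‖
    set b := ‖s‖
    set x := ⟪r, s⟫
    have e1 : (a ^ 4)⁻¹ + (b ^ 4)⁻¹ - 2 * x * (a ^ 3 * b ^ 3)⁻¹
        = (a ^ 4 + b ^ 4 - 2 * x * a * b) / (a ^ 4 * b ^ 4) := by
      field_simp
      ring
    have e2 : ((a + b) / (a ^ 2 * b ^ 2)) ^ 2 * (a ^ 2 + b ^ 2 - 2 * x)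
        = ((a + b) ^ 2 * (a ^ 2 + b ^ 2 - 2 * x)) / (a ^ 4 * b ^ 4) := by
      field_simp
    rw [e1, e2]
    apply div_le_div_of_nonneg_right _ (by positivity)
    have : 0 ≤ 2 * (a ^ 2 + a * b + b ^ 2) * (a * b - x) :=
      mul_nonneg (by positivity) (by linarith)
    nlinarith [this]
  have h2 : ‖hh r - hh s‖ ≤ ((‖r‖ + ‖s‖) / (‖r‖ ^ 2 * ‖s‖ ^ 2)) * ‖r - s‖ := by
    have := Real.sqrt_le_sqrt key
    rw [Real.sqrt_sq (norm_nonneg _), ← mul_pow, Real.sqrt_sq (by positivity)] at this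
    exact this
  refine h2.trans ?_
  apply mul_le_mul_of_nonneg_right _ (norm_nonneg _)
  set a := ‖r‖
  set b := ‖s‖
  have e3 : (a + b) / (a ^ 2 * b ^ 2) = 1 / (a * b ^ 2) + 1 / (a ^ 2 * b) := by
    field_simp
  rw [e3]
  have h4 : 1 / (a * b ^ 2) ≤ 1 / m ^ 3 := by
    apply one_div_le_one_div_of_le (by positivity)
    calc m ^ 3 = m * m ^ 2 := by ring
      _ ≤ a * b ^ 2 := by gcongr
  have h5 : 1 / (a ^ 2 * b) ≤ 1 / m ^ 3 := by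
    apply one_div_le_one_div_of_le (by positivity)
    calc m ^ 3 = m ^ 2 * m := by ring
      _ ≤ a ^ 2 * b := by gcongr
  calc 1 / (a * b ^ 2) + 1 / (a ^ 2 * b) ≤ 1 / m ^ 3 + 1 / m ^ 3 := add_le_add h4 h5
    _ = 2 / m ^ 3 := by ring

/-- lower bound -/
lemma hh_lower (r s : V) (M : ℝ) (hr0 : r ≠ 0) (hs0 : s ≠ 0) (hr : ‖r‖ ≤ M) (hs : ‖s‖ ≤ M) :
    ‖r - s‖ ≤ M ^ 3 * ‖hh r - hh s‖ := by
  have ha : 0 < ‖r‖ := norm_pos_iff.mpr hr0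
  have hb : 0 < ‖s‖ := norm_pos_iff.mpr hs0
  have hM : 0 < M := lt_of_lt_of_le ha hr
  have key : ‖r - s‖ ^ 2 ≤ (‖r‖ ^ 3 * ‖s‖ ^ 3) * ‖hh r - hh s‖ ^ 2 := by
    rw [hh_diff_sq r s hr0 hs0, diff_sq]
    set a := ‖r‖
    set b := ‖s‖
    set x := ⟪r, s⟫
    have e1 : a ^ 3 * b ^ 3 * ((a ^ 4)⁻¹ + (b ^ 4)⁻¹ - 2 * x * (a ^ 3 * b ^ 3)⁻¹)
        = (a ^ 4 + b ^ 4) / (a * b) - 2 * x := by
      field_simp
      ring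
    rw [e1]
    have : a ^ 2 + b ^ 2 ≤ (a ^ 4 + b ^ 4) / (a * b) := by
      rw [le_div_iff₀ (by positivity)]
      nlinarith [mul_nonneg (sq_nonneg (a - b)) (by positivity : (0:ℝ) ≤ a ^ 2 + a * b + b ^ 2)]
    linarith
  have h1 : ‖r - s‖ ^ 2 ≤ (M ^ 3 * ‖hh r - hh s‖) ^ 2 := by
    refine key.trans ?_
    rw [mul_pow]
    apply mul_le_mul_of_nonneg_right _ (by positivity)
    calc ‖r‖ ^ 3 * ‖s‖ ^ 3 ≤ M ^ 3 * M ^ 3 := by gcongr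
      _ = (M ^ 3) ^ 2 := by ring
  exact le_of_sq_le_sq h1 (by positivity)

end Vale.Agent.P121
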