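import Mathlib
import Vale.Agent.P121.Geom

set_option autoImplicit false

namespace Vale.Agent.P121

open scoped RealInnerProductSpace

variable {V : Type*} [NormedAddCommGroup V] [InnerProductSpace ℝ V]

/-- inverse of `hh` -/
noncomputable def qq (w : V) : V := (‖w‖ * √‖w‖)⁻¹ • w

lemma norm_hh (r : V) (hr : r ≠ 0) : ‖hh r‖ = (‖r‖ ^ 2)⁻¹ := by
  have ha : 0 < ‖r‖ := norm_pos_iff.mpr hr
  rw [hh, norm_smul, norm_inv, norm_pow, norm_norm]
  field_simp

lemma norm_qq (w : V) (hw : w ≠ 0) : ‖qq w‖ = (√‖w‖)⁻¹ := by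
  have ha : 0 < ‖w‖ := norm_pos_iff.mpr hw
  have hs : 0 < √‖w‖ := Real.sqrt_pos.mpr ha
  rw [qq, norm_smul, norm_inv, norm_mul, norm_norm, Real.norm_of_nonneg hs.le]
  field_simp

lemma hh_qq (w : V) (hw : w ≠ 0) : hh (qq w) = w := by
  have ha : 0 < ‖w‖ := norm_pos_iff.mpr hw
  have hs : 0 < √‖w‖ := Real.sqrt_pos.mpr ha
  rw [hh, norm_qq w hw, qq, smul_smul]
  have h2 : √‖w‖ ^ 3 = ‖w‖ * √‖w‖ := by
    rw [pow_succ, Real.sq_sqrt ha.le]
  rw [inv_pow, inv_inv, h2, mul_inv_cancel₀ (by positivity), one_smul]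

lemma qq_ne_zero (w : V) (hw : w ≠ 0) : qq w ≠ 0 := by
  have ha : 0 < ‖w‖ := norm_pos_iff.mpr hw
  have hs : 0 < √‖w‖ := Real.sqrt_pos.mpr ha
  intro h
  have := norm_qq w hw
  rw [h, norm_zero] at this
  have : 0 < (√‖w‖)⁻¹ := by positivity
  linarith

/-- critical triples of the branch with direction `u`. -/
structure Br (u x1 x2 x3 : V) : Prop where
  h1 : ‖x1‖ ≤ 1 / 10 ^ 6
  h2 : ‖x2 - u‖ ≤ 1 / 100
  h3 : ‖x3 + u‖ ≤ 1 / 100
  e1 : (1000 : ℝ) • x1 = hh (x1 - x2) + hh (x1 - x3)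
  e3 : (1000 : ℝ) • (x3 + u) = hh (x3 - x1) + hh (x3 - x2)

lemma hh_unit (u : V) (hu : ‖u‖ = 1) : hh u = u := by simp [hh, hu]

/-- facts about points near `u` and the associated `w`, `a`. -/
lemma near_facts (u x1 b : V) (hu : ‖u‖ = 1) (hx : ‖x1‖ ≤ 1 / 10 ^ 6) (hb : ‖b - u‖ ≤ 1 / 500) :
    (998/1000 : ℝ) ≤ ‖b‖ ∧ ‖b‖ ≤ 1002/1000 ∧
    (1000 : ℝ) • x1 - hh b ≠ 0 ∧
    ‖qq ((1000 : ℝ) • x1 - hh b)‖ ≤ 102/100 ∧
    ‖qq ((1000 : ℝ) • x1 - hh b) + u‖ ≤ 6/1000 := by
  have hb1 : (998/1000 : ℝ) ≤ ‖b‖ := by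
    have := norm_sub_norm_le u b
    rw [norm_sub_rev] at hb
    linarith
  have hb2 : ‖b‖ ≤ 1002/1000 := by
    have := norm_sub_norm_le b u
    linarith
  have hh1 : ‖hh b - u‖ ≤ 41/10000 := by
    have h := hh_upper b u (998/1000) (by norm_num) hb1 (by rw [hu]; norm_num)
    rw [hh_unit u hu] at h
    refine h.trans ?_
    have : (2 / (998 / 1000 : ℝ) ^ 3) ≤ 205/100 := by norm_num
    nlinarith [norm_nonneg (b - u)]
  set w := (1000 : ℝ) • x1 - hh b with hw
  have hw1 : ‖w + u‖ ≤ 52/10000 := by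
    have e : w + u = (1000 : ℝ) • x1 - (hh b - u) := by rw [hw]; abel
    rw [e]
    refine (norm_sub_le _ _).trans ?_
    rw [norm_smul]
    have : ‖(1000 : ℝ)‖ = 1000 := by norm_num
    rw [this]
    have : (1000:ℝ) * ‖x1‖ ≤ 1/1000 := by
      have := mul_le_mul_of_nonneg_left hx (by norm_num : (0:ℝ) ≤ 1000)
      linarith
    linarith
  have hw2 : 99/100 ≤ ‖w‖ := by
    have h := norm_sub_norm_le (-u) w
    rw [norm_neg, hu] at h
    have e : ‖-u - w‖ = ‖w + u‖ := by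
      rw [← norm_neg]; congr 1; abel
    rw [e] at h
    linarith
  have hw0 : w ≠ 0 := by
    intro h
    rw [h, norm_zero] at hw2
    norm_num at hw2
  have hq1 : ‖qq w‖ ≤ 102/100 := by
    rw [norm_qq w hw0]
    have : (99/100 : ℝ) ≤ √‖w‖ := by
      apply Real.le_sqrt_of_sq_le
      refine le_trans ?_ hw2
      norm_num
    rw [inv_le_comm₀ (by linarith) (by norm_num)]
    refine le_trans ?_ this
    norm_num
  refine ⟨hb1, hb2, hw0, hq1, ?_⟩
  have hu0 : -u ≠ 0 := by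
    intro h
    have : ‖-u‖ = 0 := by rw [h, norm_zero]
    rw [norm_neg, hu] at this
    norm_num at this
  have h := hh_lower (qq w) (-u) (102/100) (qq_ne_zero w hw0) hu0 hq1 (by rw [norm_neg, hu]; norm_num)
  rw [hh_qq w hw0, hh_neg, hh_unit u hu, sub_neg_eq_add, sub_neg_eq_add] at h
  refine h.trans ?_
  nlinarith [norm_nonneg (w + u)]

lemma exists_br [CompleteSpace V] (u x1 : V) (hu : ‖u‖ = 1) (hx : ‖x1‖ ≤ 1 / 10 ^ 6) :
    ∃ x2 x3, Br u x1 x2 x3 := by
  set A : V → V := fun b => qq ((1000 : ℝ) • x1 - hh b) with hA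
  set F : V → V := fun b => u + x1 + (1 / 1000 : ℝ) • (hh b - hh (A b - b)) with hF
  set s : Set V := Metric.closedBall u (1 / 500) with hs
  have hmem : ∀ b ∈ s, ‖b - u‖ ≤ 1 / 500 := by
    intro b hb
    rw [hs, Metric.mem_closedBall, dist_eq_norm] at hb
    exact hb
  have hnorm : ∀ b ∈ s, (199/100 : ℝ) ≤ ‖A b - b‖ := by
    intro b hb
    obtain ⟨h1, h2, h3, h4, h5⟩ := near_facts u x1 b hu hx (hmem b hb)
    have e : (2 : ℝ) • u = (A b + u) - (b - u) - (A b - b) := by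
      rw [two_smul]; abel
    have h6 : ‖(2 : ℝ) • u‖ ≤ ‖A b + u‖ + ‖b - u‖ + ‖A b - b‖ := by
      rw [e]
      exact (norm_sub_le _ _).trans (by gcongr; exact norm_sub_le _ _)
    rw [norm_smul, hu] at h6
    have : ‖(2 : ℝ)‖ = 2 := by norm_num
    rw [this] at h6
    have := hmem b hb
    have h5' : ‖A b + u‖ ≤ 6/1000 := h5
    linarith
  have hmaps : Set.MapsTo F s s := by
    intro b hb
    obtain ⟨h1, h2, h3, h4, h5⟩ := near_facts u x1 b hu hx (hmem b hb)
    rw [hs, Metric.mem_closedBall, dist_eq_norm]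
    have e : F b - u = x1 + (1 / 1000 : ℝ) • (hh b - hh (A b - b)) := by
      simp only [hF]; abel
    rw [e]
    have hb0 : b ≠ 0 := by
      intro h; rw [h, norm_zero] at h1; norm_num at h1
    have h7 := hnorm b hb
    have hab0 : A b - b ≠ 0 := by
      intro h; rw [h, norm_zero] at h7; norm_num at h7
    have n1 : ‖hh b‖ ≤ 101/100 := by
      rw [norm_hh b hb0, inv_le_comm₀ (by positivity) (by norm_num)]
      nlinarith
    have n2 : ‖hh (A b - b)‖ ≤ 1/2 := by
      rw [norm_hh _ hab0, inv_le_comm₀ (by positivity) (by norm_num)]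
      nlinarith
    refine (norm_add_le _ _).trans ?_
    rw [norm_smul]
    have : ‖(1 / 1000 : ℝ)‖ = 1 / 1000 := by norm_num
    rw [this]
    have := norm_sub_le (hh b) (hh (A b - b))
    linarith
  have hcontr : ContractingWith (1/2) (hmaps.restrict F s s) := by
    refine ⟨by norm_num, ?_⟩
    apply LipschitzWith.of_dist_le_mul
    rintro ⟨b, hb⟩ ⟨c, hc⟩
    obtain ⟨h1, h2, h3, h4, h5⟩ := near_facts u x1 b hu hx (hmem b hb)
    obtain ⟨k1, k2, k3, k4, k5⟩ := near_facts u x1 c hu hx (hmem c hc)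
    have h7 := hnorm b hb
    have k7 := hnorm c hc
    change dist (F b) (F c) ≤ _ * dist b c
    rw [dist_eq_norm, dist_eq_norm]
    have e : F b - F c = (1 / 1000 : ℝ) • ((hh b - hh c) - (hh (A b - b) - hh (A c - c))) := by
      simp only [hF]
      rw [add_sub_add_left_eq_sub, ← smul_sub]
      congr 1
      abel
    rw [e, norm_smul]
    have t1 : ‖hh b - hh c‖ ≤ 3 * ‖b - c‖ := by
      refine (hh_upper b c (998/1000) (by norm_num) h1 k1).trans ?_
      apply mul_le_mul_of_nonneg_right _ (norm_nonneg _)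
      norm_num
    have t2 : ‖A b - A c‖ ≤ 4 * ‖b - c‖ := by
      have h := hh_lower (A b) (A c) (102/100) (qq_ne_zero _ h3) (qq_ne_zero _ k3) h4 k4
      have e2 : hh (A b) - hh (A c) = -(hh b - hh c) := by
        simp only [hA]
        rw [hh_qq _ h3, hh_qq _ k3]
        abel
      rw [e2, norm_neg] at h
      refine h.trans ?_
      nlinarith [norm_nonneg (hh b - hh c), norm_nonneg (b - c)]
    have t3 : ‖hh (A b - b) - hh (A c - c)‖ ≤ 15 * ‖b - c‖ := by
      refine (hh_upper _ _ (199/100) (by norm_num) h7 k7).trans ?_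
      have : ‖A b - b - (A c - c)‖ ≤ 5 * ‖b - c‖ := by
        have e3 : A b - b - (A c - c) = (A b - A c) - (b - c) := by abel
        rw [e3]
        refine (norm_sub_le _ _).trans ?_
        linarith
      have h8 : (2 / (199/100 : ℝ) ^ 3) ≤ 3 := by norm_num
      calc 2 / (199/100 : ℝ) ^ 3 * ‖A b - b - (A c - c)‖
          ≤ 3 * (5 * ‖b - c‖) := by gcongr
        _ = 15 * ‖b - c‖ := by ring
    have t4 := norm_sub_le (hh b - hh c) (hh (A b - b) - hh (A c - c))
    have : ‖(1 / 1000 : ℝ)‖ = 1 / 1000 := by norm_num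
    rw [this]
    have e5 : (((1/2 : NNReal)) : ℝ) = 1/2 := by norm_num
    rw [e5]
    nlinarith [norm_nonneg (b - c)]
  have hsc : IsComplete s := Metric.isClosed_closedBall.isComplete
  have hus : u ∈ s := Metric.mem_closedBall_self (by norm_num)
  obtain ⟨b, hb, hfix, -, -⟩ := hcontr.exists_fixedPoint' hsc hmaps hus (edist_ne_top _ _)
  obtain ⟨h1, h2, h3, h4, h5⟩ := near_facts u x1 b hu hx (hmem b hb)
  refine ⟨x1 - A b, x1 - b, hx, ?_, ?_, ?_, ?_⟩
  · have e : x1 - A b - u = x1 - (A b + u) := by abel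
    rw [e]
    refine (norm_sub_le _ _).trans ?_
    have h5' : ‖A b + u‖ ≤ 6/1000 := h5
    linarith
  · have e : x1 - b + u = x1 - (b - u) := by abel
    rw [e]
    refine (norm_sub_le _ _).trans ?_
    have := hmem b hb
    linarith
  · rw [sub_sub_cancel, sub_sub_cancel]
    have : hh (A b) = (1000 : ℝ) • x1 - hh b := hh_qq _ h3
    rw [this]
    abel
  · have hfix' : F b = b := hfix
    have e1 : x1 - b - x1 = - b := by abel
    have e2 : x1 - b - (x1 - A b) = A b - b := by abel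
    rw [e1, e2, hh_neg]
    have e3 : x1 - b + u = -((1 / 1000 : ℝ) • (hh b - hh (A b - b))) := by
      nth_rewrite 1 [← hfix']
      simp only [hF]
      abel
    rw [e3, smul_neg, smul_smul]
    norm_num
    abel

end Vale.Agent.P121
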