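import Mathlib

set_option autoImplicit false

namespace Vale.Agent.P121

open MeasureTheory

variable {X : Type} [NormedAddCommGroup X] [MeasurableSpace X]

/-- Coulomb repulsion `1/|x-y|` of two points, equal to `∞` when `x = y` -/
noncomputable def pairCost (x y : X) : ENNReal := (ENNReal.ofReal ‖x - y‖)⁻¹

/-- the Coulomb cost of three points -/
noncomputable def cost (x y z : X) : ENNReal := pairCost x y + pairCost x z + pairCost y z

/-- `π` is a coupling of three copies of `μ`: a probability measure on the
triple product whose three coordinate marginals all equal `μ` -/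
def IsPlan (μ : Measure X) (π : Measure (X × X × X)) : Prop :=
  IsProbabilityMeasure π ∧ π.map (fun p => p.1) = μ ∧ π.map (fun p => p.2.1) = μ ∧
    π.map (fun p => p.2.2) = μ

/-- the Kantorovich value: infimum of the cost over all couplings -/
noncomputable def kantorovich (μ : Measure X) : ENNReal :=
  ⨅ (π : Measure (X × X × X)) (_ : IsPlan μ π), ∫⁻ p, cost p.1 p.2.1 p.2.2 ∂π

/-- `μ` admits an optimal Monge plan: measurable maps `T₂`, `T₃` preserving `μ` such that
`(Id, T₂, T₃)` has cost equal to the Kantorovich value -/
def HasOptimalMongePlan (μ : Measure X) : Prop :=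
  ∃ T₂ T₃ : X → X, Measurable T₂ ∧ Measurable T₃ ∧ μ.map T₂ = μ ∧ μ.map T₃ = μ ∧
    ∫⁻ x, cost x (T₂ x) (T₃ x) ∂μ = kantorovich μ

end Vale.Agent.P121
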