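import Mathlib
import Vale.Agent.P121.Branch

set_option autoImplicit false

namespace Vale.Agent.P121

open scoped RealInnerProductSpace

variable {V : Type*} [NormedAddCommGroup V] [InnerProductSpace ℝ V]

lemma Br.norm12 {u x1 x2 x3 : V} (hu : ‖u‖ = 1) (h : Br u x1 x2 x3) :
    (98/100 : ℝ) ≤ ‖x1 - x2‖ ∧ ‖x1 - x2‖ ≤ 102/100 := by
  have h1 := h.h1
  have h2 := h.h2
  constructor
  · have e : u = -(x1 - x2) + x1 - (x2 - u) := by abel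
    have : ‖u‖ ≤ ‖x1 - x2‖ + ‖x1‖ + ‖x2 - u‖ := by
      nth_rewrite 1 [e]
      refine (norm_sub_le _ _).trans ?_
      gcongr
      refine (norm_add_le _ _).trans ?_
      rw [norm_neg]
    rw [hu] at this
    linarith
  · have e : x1 - x2 = x1 - (x2 - u) - u := by abel
    rw [e]
    have := norm_sub_le (x1 - (x2 - u)) u
    have := norm_sub_le x1 (x2 - u)
    linarith

lemma Br.norm13 {u x1 x2 x3 : V} (hu : ‖u‖ = 1) (h : Br u x1 x2 x3) :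
    (98/100 : ℝ) ≤ ‖x1 - x3‖ ∧ ‖x1 - x3‖ ≤ 102/100 := by
  have h1 := h.h1
  have h3 := h.h3
  constructor
  · have e : u = (x1 - x3) - x1 + (x3 + u) := by abel
    have : ‖u‖ ≤ ‖x1 - x3‖ + ‖x1‖ + ‖x3 + u‖ := by
      nth_rewrite 1 [e]
      refine (norm_add_le _ _).trans ?_
      gcongr
      exact norm_sub_le _ _
    rw [hu] at this
    linarith
  · have e : x1 - x3 = x1 - (x3 + u) + u := by abel
    rw [e]
    have := norm_add_le (x1 - (x3 + u)) u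
    have := norm_sub_le x1 (x3 + u)
    linarith

lemma Br.norm32 {u x1 x2 x3 : V} (hu : ‖u‖ = 1) (h : Br u x1 x2 x3) :
    (198/100 : ℝ) ≤ ‖x3 - x2‖ ∧ ‖x3 - x2‖ ≤ 202/100 := by
  have h2 := h.h2
  have h3 := h.h3
  have h2u : ‖(2 : ℝ) • u‖ = 2 := by rw [norm_smul, hu]; norm_num
  constructor
  · have e : (2 : ℝ) • u = -(x3 - x2) - (x2 - u) + (x3 + u) := by rw [two_smul]; abel
    have : ‖(2 : ℝ) • u‖ ≤ ‖x3 - x2‖ + ‖x2 - u‖ + ‖x3 + u‖ := by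
      nth_rewrite 1 [e]
      refine (norm_add_le _ _).trans ?_
      gcongr
      refine (norm_sub_le _ _).trans ?_
      rw [norm_neg]
    rw [h2u] at this
    linarith
  · have e : x3 - x2 = (x3 + u) - (x2 - u) - (2 : ℝ) • u := by rw [two_smul]; abel
    rw [e]
    have := norm_sub_le ((x3 + u) - (x2 - u)) ((2 : ℝ) • u)
    have := norm_sub_le (x3 + u) (x2 - u)
    linarith

lemma ne_zero_of_le {r : V} {m : ℝ} (hm : 0 < m) (h : m ≤ ‖r‖) : r ≠ 0 := by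
  intro h0
  rw [h0, norm_zero] at h
  linarith

/-- bi-Lipschitz dependence of the critical triple. -/
lemma Br.stab {u x1 x2 x3 y1 y2 y3 : V} (hu : ‖u‖ = 1) (h : Br u x1 x2 x3) (k : Br u y1 y2 y3) :
    ‖x1 - y1‖ ≤ ‖x2 - y2‖ ∧ ‖x1 - y1‖ ≤ 30 * ‖x3 - y3‖ ∧
    ‖x2 - y2‖ ≤ 2200 * ‖x1 - y1‖ ∧ ‖x3 - y3‖ ≤ 10 * ‖x1 - y1‖ := by
  obtain ⟨a1, a2⟩ := h.norm12 hu
  obtain ⟨a3, a4⟩ := h.norm13 hu
  obtain ⟨a5, a6⟩ := h.norm32 hu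
  obtain ⟨b1, b2⟩ := k.norm12 hu
  obtain ⟨b3, b4⟩ := k.norm13 hu
  obtain ⟨b5, b6⟩ := k.norm32 hu
  -- upper bounds
  have c98 : (2 / (98/100 : ℝ) ^ 3) ≤ 3 := by norm_num
  have u12 : ‖hh (x1 - x2) - hh (y1 - y2)‖ ≤ 3 * (‖x1 - y1‖ + ‖x2 - y2‖) := by
    refine (hh_upper _ _ (98/100) (by norm_num) a1 b1).trans ?_
    have e : x1 - x2 - (y1 - y2) = (x1 - y1) - (x2 - y2) := by abel
    rw [e]
    have := norm_sub_le (x1 - y1) (x2 - y2)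
    gcongr
  have u13 : ‖hh (x1 - x3) - hh (y1 - y3)‖ ≤ 3 * (‖x1 - y1‖ + ‖x3 - y3‖) := by
    refine (hh_upper _ _ (98/100) (by norm_num) a3 b3).trans ?_
    have e : x1 - x3 - (y1 - y3) = (x1 - y1) - (x3 - y3) := by abel
    rw [e]
    have := norm_sub_le (x1 - y1) (x3 - y3)
    gcongr
  have u31 : ‖hh (x3 - x1) - hh (y3 - y1)‖ ≤ 3 * (‖x1 - y1‖ + ‖x3 - y3‖) := by
    have e : hh (x3 - x1) - hh (y3 - y1) = -(hh (x1 - x3) - hh (y1 - y3)) := by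
      rw [← neg_sub x1 x3, ← neg_sub y1 y3, hh_neg, hh_neg]; abel
    rw [e, norm_neg]
    exact u13
  have u32 : ‖hh (x3 - x2) - hh (y3 - y2)‖ ≤ 3 * (‖x3 - y3‖ + ‖x2 - y2‖) := by
    refine (hh_upper _ _ (98/100) (by norm_num) (by linarith) (by linarith)).trans ?_
    have e : x3 - x2 - (y3 - y2) = (x3 - y3) - (x2 - y2) := by abel
    rw [e]
    have := norm_sub_le (x3 - y3) (x2 - y2)
    gcongr
  have n1000 : ‖(1000 : ℝ)‖ = 1000 := by norm_num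
  -- difference identities
  have d1 : (1000 : ℝ) • (x1 - y1) = (hh (x1 - x2) - hh (y1 - y2)) + (hh (x1 - x3) - hh (y1 - y3)) := by
    rw [smul_sub, h.e1, k.e1]; abel
  have d3 : (1000 : ℝ) • (x3 - y3) = (hh (x3 - x1) - hh (y3 - y1)) + (hh (x3 - x2) - hh (y3 - y2)) := by
    have : x3 - y3 = (x3 + u) - (y3 + u) := by abel
    rw [this, smul_sub, h.e3, k.e3]; abel
  have I1 : 1000 * ‖x1 - y1‖ ≤ 3 * (‖x1 - y1‖ + ‖x2 - y2‖) + 3 * (‖x1 - y1‖ + ‖x3 - y3‖) := by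
    rw [← n1000, ← norm_smul, d1]
    rw [n1000] at *
    exact (norm_add_le _ _).trans (add_le_add u12 u13)
  have I3 : 1000 * ‖x3 - y3‖ ≤ 3 * (‖x1 - y1‖ + ‖x3 - y3‖) + 3 * (‖x3 - y3‖ + ‖x2 - y2‖) := by
    rw [← n1000, ← norm_smul, d3]
    rw [n1000] at *
    exact (norm_add_le _ _).trans (add_le_add u31 u32)
  -- lower bounds
  have I2 : ‖x2 - y2‖ ≤ ‖x1 - y1‖ + 2 * (1000 * ‖x1 - y1‖ + 3 * (‖x1 - y1‖ + ‖x3 - y3‖)) := by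
    have l := hh_lower (x1 - x2) (y1 - y2) (102/100) (ne_zero_of_le (by norm_num) a1)
      (ne_zero_of_le (by norm_num) b1) a2 b2
    have e : hh (x1 - x2) - hh (y1 - y2) = (1000 : ℝ) • (x1 - y1) - (hh (x1 - x3) - hh (y1 - y3)) := by
      rw [d1]; abel
    rw [e] at l
    have l2 : ‖(1000 : ℝ) • (x1 - y1) - (hh (x1 - x3) - hh (y1 - y3))‖
        ≤ 1000 * ‖x1 - y1‖ + 3 * (‖x1 - y1‖ + ‖x3 - y3‖) := by
      refine (norm_sub_le _ _).trans ?_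
      rw [norm_smul, n1000]
      gcongr
    have l3 : ‖x2 - y2‖ ≤ ‖x1 - y1‖ + ‖x1 - x2 - (y1 - y2)‖ := by
      have e : x2 - y2 = (x1 - y1) - (x1 - x2 - (y1 - y2)) := by abel
      nth_rewrite 1 [e]
      exact norm_sub_le _ _
    have l4 : (102/100 : ℝ) ^ 3 ≤ 2 := by norm_num
    have l5 : (102/100 : ℝ) ^ 3 * ‖(1000 : ℝ) • (x1 - y1) - (hh (x1 - x3) - hh (y1 - y3))‖
        ≤ 2 * (1000 * ‖x1 - y1‖ + 3 * (‖x1 - y1‖ + ‖x3 - y3‖)) := by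
      gcongr
    linarith
  have I4 : ‖x2 - y2‖ ≤ ‖x3 - y3‖ + 9 * (1000 * ‖x3 - y3‖ + 3 * (‖x1 - y1‖ + ‖x3 - y3‖)) := by
    have l := hh_lower (x3 - x2) (y3 - y2) (202/100) (ne_zero_of_le (by norm_num) a5)
      (ne_zero_of_le (by norm_num) b5) a6 b6
    have e : hh (x3 - x2) - hh (y3 - y2) = (1000 : ℝ) • (x3 - y3) - (hh (x3 - x1) - hh (y3 - y1)) := by
      rw [d3]; abel
    rw [e] at l
    have l2 : ‖(1000 : ℝ) • (x3 - y3) - (hh (x3 - x1) - hh (y3 - y1))‖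
        ≤ 1000 * ‖x3 - y3‖ + 3 * (‖x1 - y1‖ + ‖x3 - y3‖) := by
      refine (norm_sub_le _ _).trans ?_
      rw [norm_smul, n1000]
      gcongr
    have l3 : ‖x2 - y2‖ ≤ ‖x3 - y3‖ + ‖x3 - x2 - (y3 - y2)‖ := by
      have e : x2 - y2 = (x3 - y3) - (x3 - x2 - (y3 - y2)) := by abel
      nth_rewrite 1 [e]
      exact norm_sub_le _ _
    have l4 : (202/100 : ℝ) ^ 3 ≤ 9 := by norm_num
    have l5 : (202/100 : ℝ) ^ 3 * ‖(1000 : ℝ) • (x3 - y3) - (hh (x3 - x1) - hh (y3 - y1))‖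
        ≤ 9 * (1000 * ‖x3 - y3‖ + 3 * (‖x1 - y1‖ + ‖x3 - y3‖)) := by
      gcongr
    linarith
  have p1 := norm_nonneg (x1 - y1)
  have p2 := norm_nonneg (x2 - y2)
  have p3 := norm_nonneg (x3 - y3)
  refine ⟨by linarith, by linarith, by linarith, by linarith⟩

/-- real valued Coulomb cost (used away from coincidences). -/
noncomputable def cc (x y z : V) : ℝ := ‖x - y‖⁻¹ + ‖x - z‖⁻¹ + ‖y - z‖⁻¹

/-- dual inequality in a branch, with a quadratic gain. -/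
lemma Br.dual {u x1 x2 x3 : V} (hu : ‖u‖ = 1) (h : Br u x1 x2 x3) (y1 y3 : V)
    (h12 : y1 ≠ x2) (h13 : y1 ≠ y3) (h32 : y3 ≠ x2) :
    cc x1 x2 x3 + 500 * ‖x1‖ ^ 2 + 500 * ‖x3 + u‖ ^ 2 + (‖y1 - x1‖ ^ 2 + ‖y3 - x3‖ ^ 2)
      ≤ cc y1 x2 y3 + 500 * ‖y1‖ ^ 2 + 500 * ‖y3 + u‖ ^ 2 := by
  obtain ⟨a1, a2⟩ := h.norm12 hu
  obtain ⟨a3, a4⟩ := h.norm13 hu
  obtain ⟨a5, a6⟩ := h.norm32 hu
  have n12 : x1 - x2 ≠ 0 := ne_zero_of_le (by norm_num) a1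
  have n13 : x1 - x3 ≠ 0 := ne_zero_of_le (by norm_num) a3
  have n32 : x3 - x2 ≠ 0 := ne_zero_of_le (by norm_num) a5
  have k12 := key_ineq (x1 - x2) (y1 - x2) n12 (sub_ne_zero.mpr h12)
  have k13 := key_ineq (x1 - x3) (y1 - y3) n13 (sub_ne_zero.mpr h13)
  have k32 := key_ineq (x3 - x2) (y3 - x2) n32 (sub_ne_zero.mpr h32)
  have e12 : y1 - x2 - (x1 - x2) = y1 - x1 := by abel
  have e13 : y1 - y3 - (x1 - x3) = (y1 - x1) - (y3 - x3) := by abel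
  have e32 : y3 - x2 - (x3 - x2) = y3 - x3 := by abel
  rw [e12] at k12
  rw [e13] at k13
  rw [e32] at k32
  set D1 := y1 - x1 with hD1
  set D3 := y3 - x3 with hD3
  -- the linear terms
  have lin1 : ⟪hh (x1 - x2), D1⟫ + ⟪hh (x1 - x3), D1⟫ = 1000 * ⟪x1, D1⟫ := by
    rw [← inner_add_left, ← h.e1, inner_smul_left]; simp
  have lin3 : ⟪hh (x3 - x2), D3⟫ - ⟪hh (x1 - x3), D3⟫ = 1000 * ⟪x3 + u, D3⟫ := by
    have : hh (x3 - x2) - hh (x1 - x3) = (1000 : ℝ) • (x3 + u) := by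
      rw [h.e3, ← neg_sub x1 x3, hh_neg]; abel
    rw [← inner_sub_left, this, inner_smul_left]; simp
  have in13 : ⟪hh (x1 - x3), D1 - D3⟫ = ⟪hh (x1 - x3), D1⟫ - ⟪hh (x1 - x3), D3⟫ := inner_sub_right _ _ _
  rw [in13] at k13
  have q1 : ‖y1‖ ^ 2 = ‖x1‖ ^ 2 + 2 * ⟪x1, D1⟫ + ‖D1‖ ^ 2 := by
    have : y1 = x1 + D1 := by rw [hD1]; abel
    rw [this, norm_add_sq_real]
  have q3 : ‖y3 + u‖ ^ 2 = ‖x3 + u‖ ^ 2 + 2 * ⟪x3 + u, D3⟫ + ‖D3‖ ^ 2 := by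
    have : y3 + u = (x3 + u) + D3 := by rw [hD3]; abel
    rw [this, norm_add_sq_real]
  have D13 : ‖D1 - D3‖ ^ 2 ≤ 2 * ‖D1‖ ^ 2 + 2 * ‖D3‖ ^ 2 := by
    have := parallelogram_law_with_norm ℝ D1 D3
    nlinarith [norm_nonneg (D1 + D3)]
  have i12 : (‖x1 - x2‖ ^ 3)⁻¹ ≤ 2 := by
    rw [inv_le_comm₀ (by positivity) (by norm_num)]
    calc (2 : ℝ)⁻¹ ≤ (98/100) ^ 3 := by norm_num
      _ ≤ _ := by gcongr
  have i13 : (‖x1 - x3‖ ^ 3)⁻¹ ≤ 2 := by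
    rw [inv_le_comm₀ (by positivity) (by norm_num)]
    calc (2 : ℝ)⁻¹ ≤ (98/100) ^ 3 := by norm_num
      _ ≤ _ := by gcongr
  have i32 : (‖x3 - x2‖ ^ 3)⁻¹ ≤ 2 := by
    rw [inv_le_comm₀ (by positivity) (by norm_num)]
    calc (2 : ℝ)⁻¹ ≤ (198/100) ^ 3 := by norm_num
      _ ≤ _ := by gcongr
  have m12 : 1/2 * ‖D1‖ ^ 2 * (‖x1 - x2‖ ^ 3)⁻¹ ≤ 1/2 * ‖D1‖ ^ 2 * 2 := by gcongr
  have m32 : 1/2 * ‖D3‖ ^ 2 * (‖x3 - x2‖ ^ 3)⁻¹ ≤ 1/2 * ‖D3‖ ^ 2 * 2 := by gcongr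
  have m13 : 1/2 * ‖D1 - D3‖ ^ 2 * (‖x1 - x3‖ ^ 3)⁻¹ ≤ 1/2 * (2 * ‖D1‖ ^ 2 + 2 * ‖D3‖ ^ 2) * 2 := by gcongr
  have s23 : ‖x2 - x3‖ = ‖x3 - x2‖ := norm_sub_rev _ _
  have s23' : ‖x2 - y3‖ = ‖y3 - x2‖ := norm_sub_rev _ _
  simp only [cc, s23, s23', q1, q3]
  have p1 := sq_nonneg ‖D1‖
  have p3 := sq_nonneg ‖D3‖
  linarith

end Vale.Agent.P121
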