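import Mathlib
import Vale.Agent.P121.Stab
import Vale.Agent.P121.Defs

set_option autoImplicit false

namespace Vale.Agent.P121

open scoped RealInnerProductSpace
open MeasureTheory

/-- Euclidean three-space -/
abbrev R3 := EuclideanSpace ℝ (Fin 3)

/-- the two directions -/
noncomputable def uu (b : Bool) : R3 := if b then EuclideanSpace.single 0 1 else EuclideanSpace.single 1 1

lemma norm_uu (b : Bool) : ‖uu b‖ = 1 := by
  cases b <;> simp [uu]

lemma inner_uu (b c : Bool) (h : b ≠ c) : ⟪uu b, uu c⟫ = 0 := by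
  cases b <;> cases c <;> simp_all [uu, EuclideanSpace.inner_single_left]

lemma exists_maps (u : R3) (hu : ‖u‖ = 1) : ∃ T S : R3 → R3, Measurable T ∧ Measurable S ∧
    ∀ x, ‖x‖ ≤ 1 / 10 ^ 6 → Br u x (T x) (S x) := by
  classical
  choose! f g hfg using fun x => exists_br u x hu
  have hmem : ∀ x ∈ Metric.closedBall (0 : R3) (1 / 10 ^ 6), ‖x‖ ≤ 1 / 10 ^ 6 := by
    intro x hx
    simpa [Metric.mem_closedBall, dist_eq_norm] using hx
  have hf : LipschitzOnWith 2200 f (Metric.closedBall 0 (1 / 10 ^ 6)) := by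
    apply LipschitzOnWith.of_dist_le_mul
    intro x hx y hy
    rw [dist_eq_norm, dist_eq_norm]
    have := ((hfg x (hmem x hx)).stab hu (hfg y (hmem y hy))).2.2.1
    simpa using this
  have hg : LipschitzOnWith 10 g (Metric.closedBall 0 (1 / 10 ^ 6)) := by
    apply LipschitzOnWith.of_dist_le_mul
    intro x hx y hy
    rw [dist_eq_norm, dist_eq_norm]
    have := ((hfg x (hmem x hx)).stab hu (hfg y (hmem y hy))).2.2.2
    simpa using this
  refine ⟨(Metric.closedBall 0 (1 / 10 ^ 6)).piecewise f (fun _ => 0),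
    (Metric.closedBall 0 (1 / 10 ^ 6)).piecewise g (fun _ => 0),
    hf.continuousOn.measurable_piecewise continuousOn_const Metric.isClosed_closedBall.measurableSet,
    hg.continuousOn.measurable_piecewise continuousOn_const Metric.isClosed_closedBall.measurableSet, ?_⟩
  intro x hx
  have hx' : x ∈ Metric.closedBall (0 : R3) (1 / 10 ^ 6) := by
    simpa [Metric.mem_closedBall, dist_eq_norm] using hx
  rw [Set.piecewise_eq_of_mem _ _ _ hx', Set.piecewise_eq_of_mem _ _ _ hx']
  exact hfg x hx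

/-- second particle of branch `b` -/
noncomputable def TT (b : Bool) : R3 → R3 := (exists_maps (uu b) (norm_uu b)).choose

/-- third particle of branch `b` -/
noncomputable def SS (b : Bool) : R3 → R3 := (exists_maps (uu b) (norm_uu b)).choose_spec.choose

lemma measurable_TT (b : Bool) : Measurable (TT b) :=
  (exists_maps (uu b) (norm_uu b)).choose_spec.choose_spec.1

lemma measurable_SS (b : Bool) : Measurable (SS b) :=
  (exists_maps (uu b) (norm_uu b)).choose_spec.choose_spec.2.1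

lemma br_TS (b : Bool) (x : R3) (hx : ‖x‖ ≤ 1 / 10 ^ 6) : Br (uu b) x (TT b x) (SS b x) :=
  (exists_maps (uu b) (norm_uu b)).choose_spec.choose_spec.2.2 x hx

/-- names of the five clusters -/
inductive Idx where
  | o : Idx
  | p : Bool → Idx
  | m : Bool → Idx
  deriving DecidableEq

instance : Fintype Idx :=
  ⟨{Idx.o, Idx.p true, Idx.p false, Idx.m true, Idx.m false}, by
    intro i
    rcases i with _ | b | b
    · simp
    · cases b <;> simp
    · cases b <;> simp⟩

instance : MeasurableSpace Idx := ⊤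

instance : DiscreteMeasurableSpace Idx := ⟨fun _ => trivial⟩

/-- centres of the clusters -/
noncomputable def ctr : Idx → R3
  | .o => 0
  | .p b => uu b
  | .m b => - uu b

/-- the parametrization of the clusters by the small ball at the origin -/
noncomputable def JJ : Idx → R3 → R3
  | .o, x => x
  | .p b, x => TT b x
  | .m b, x => SS b x

/-- the potential, in the parameter -/
noncomputable def Phi : Idx → R3 → ℝ
  | .o, x => 3/2 - 500 * ‖x‖ ^ 2
  | .p b, x => cc x (TT b x) (SS b x) - (3/2 - 500 * ‖x‖ ^ 2) - (1/2 - 500 * ‖SS b x + uu b‖ ^ 2)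
  | .m b, x => 1/2 - 500 * ‖SS b x + uu b‖ ^ 2

/-- lower bounds (times 1000) for inverse distances between clusters -/
def kap : Idx → Idx → ℕ
  | .o, .o => 50000
  | .o, _ => 980
  | _, .o => 980
  | .p b, .p c => if b = c then 50000 else 697
  | .m b, .m c => if b = c then 50000 else 697
  | .p b, .m c => if b = c then 495 else 697
  | .m b, .p c => if b = c then 495 else 697

/-- upper bounds (times 1000) for the potential on clusters -/
def pot : Idx → ℕ
  | .o => 1500
  | .p _ => 550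
  | .m _ => 500

/-- the three indices are those of a branch, in some order -/
def Special (i j k : Idx) : Prop :=
  ∃ b : Bool, (i = .o ∧ j = .p b ∧ k = .m b) ∨ (i = .o ∧ j = .m b ∧ k = .p b) ∨
    (i = .p b ∧ j = .o ∧ k = .m b) ∨ (i = .m b ∧ j = .o ∧ k = .p b) ∨
    (i = .p b ∧ j = .m b ∧ k = .o) ∨ (i = .m b ∧ j = .p b ∧ k = .o)

instance (i j k : Idx) : Decidable (Special i j k) := by unfold Special; infer_instance

lemma table : ∀ i j k : Idx, Special i j k ∨
    pot i + pot j + pot k < kap i j + kap i k + kap j k := by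
  decide

lemma ctr_dist (i j : Idx) : ‖ctr i - ctr j‖ + 2/100 ≤ 1000 / (kap i j : ℝ) := by
  have perp : ∀ b c : Bool, b ≠ c → ‖uu b - uu c‖ ≤ 14143/10000 := by
    intro b c h
    apply abs_le_of_sq_le_sq' _ (by norm_num) |>.2
    rw [norm_sub_sq_real, norm_uu, norm_uu, inner_uu b c h]
    norm_num
  have perp' : ∀ b c : Bool, b ≠ c → ‖uu b + uu c‖ ≤ 14143/10000 := by
    intro b c h
    apply abs_le_of_sq_le_sq' _ (by norm_num) |>.2
    rw [norm_add_sq_real, norm_uu, norm_uu, inner_uu b c h]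
    norm_num
  have opp : ∀ b : Bool, ‖uu b + uu b‖ = 2 := by
    intro b
    rw [← two_smul ℝ (uu b), norm_smul, norm_uu]; norm_num
  rcases i with _ | b | b <;> rcases j with _ | c | c
  · simp [ctr, kap]; norm_num
  · simp [ctr, kap, norm_uu]; norm_num
  · simp [ctr, kap, norm_uu]; norm_num
  · simp [ctr, kap, norm_uu]; norm_num
  · by_cases h : b = c
    · subst h; simp [ctr, kap]; norm_num
    · have := perp b c h
      simp only [ctr, kap, h, if_false]
      norm_num
      linarith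
  · by_cases h : b = c
    · subst h
      simp only [ctr, kap, if_true, sub_neg_eq_add, opp]; norm_num
    · have := perp' b c h
      simp only [ctr, kap, h, if_false, sub_neg_eq_add]
      norm_num
      linarith
  · simp [ctr, kap, norm_uu]; norm_num
  · by_cases h : b = c
    · subst h
      have e : -uu b - uu b = -(uu b + uu b) := by abel
      simp only [ctr, kap, if_true, e, norm_neg, opp]; norm_num
    · have := perp' b c h
      have e : -uu b - uu c = -(uu b + uu c) := by abel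
      simp only [ctr, kap, h, if_false, e, norm_neg]
      norm_num
      linarith
  · by_cases h : b = c
    · subst h; simp [ctr, kap]; norm_num
    · have := perp c b (Ne.symm h)
      have e : -uu b - -uu c = uu c - uu b := by abel
      simp only [ctr, kap, h, if_false, e]
      norm_num
      linarith

lemma kap_pos (i j : Idx) : 0 < kap i j := by
  revert i j; decide

lemma JJ_near (i : Idx) (x : R3) (hx : ‖x‖ ≤ 1 / 10 ^ 6) : ‖JJ i x - ctr i‖ ≤ 1/100 := by
  rcases i with _ | b | b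
  · simp only [JJ, ctr, sub_zero]; linarith
  · exact (br_TS b x hx).h2
  · simp only [JJ, ctr, sub_neg_eq_add]
    exact (br_TS b x hx).h3

lemma inv_lower (i j : Idx) (x y : R3) (hx : ‖x‖ ≤ 1 / 10 ^ 6) (hy : ‖y‖ ≤ 1 / 10 ^ 6)
    (hne : JJ i x ≠ JJ j y) : (kap i j : ℝ) / 1000 ≤ ‖JJ i x - JJ j y‖⁻¹ := by
  have h1 := JJ_near i x hx
  have h2 := JJ_near j y hy
  have h3 := ctr_dist i j
  have hk : (0 : ℝ) < kap i j := by exact_mod_cast kap_pos i j
  have h0 : 0 < ‖JJ i x - JJ j y‖ := norm_pos_iff.mpr (sub_ne_zero.mpr hne)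
  have h4 : ‖JJ i x - JJ j y‖ ≤ 1000 / (kap i j : ℝ) := by
    have e : JJ i x - JJ j y = (JJ i x - ctr i) - (JJ j y - ctr j) + (ctr i - ctr j) := by abel
    rw [e]
    have := norm_add_le ((JJ i x - ctr i) - (JJ j y - ctr j)) (ctr i - ctr j)
    have := norm_sub_le (JJ i x - ctr i) (JJ j y - ctr j)
    linarith
  rw [le_inv_comm₀ (by positivity) h0]
  refine h4.trans (le_of_eq ?_)
  rw [inv_div]

/-- numeric facts for a branch triple -/
lemma br_numeric {u x1 x2 x3 : R3} (hu : ‖u‖ = 1) (h : Br u x1 x2 x3) :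
    500 * ‖x1‖ ^ 2 ≤ 1/10000 ∧ 500 * ‖x3 + u‖ ^ 2 ≤ 9/10000 ∧
    245/100 ≤ cc x1 x2 x3 ∧ cc x1 x2 x3 ≤ 2546/1000 := by
  obtain ⟨a1, a2⟩ := h.norm12 hu
  obtain ⟨a3, a4⟩ := h.norm13 hu
  obtain ⟨a5, a6⟩ := h.norm32 hu
  have n13 : x1 - x3 ≠ 0 := ne_zero_of_le (by norm_num) a3
  have n31 : x3 - x1 ≠ 0 := by rw [← neg_sub]; exact neg_ne_zero.mpr n13
  have n32 : x3 - x2 ≠ 0 := ne_zero_of_le (by norm_num) a5
  have q1 : ‖x1‖ ^ 2 ≤ (1 / 10 ^ 6) ^ 2 := by
    have := h.h1
    gcongr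
  have q3 : ‖x3 + u‖ ≤ 13/10000 := by
    have t : ‖(1000 : ℝ) • (x3 + u)‖ ≤ (‖x3 - x1‖ ^ 2)⁻¹ + (‖x3 - x2‖ ^ 2)⁻¹ := by
      rw [h.e3]
      refine (norm_add_le _ _).trans (le_of_eq ?_)
      rw [norm_hh _ n31, norm_hh _ n32]
    rw [norm_smul] at t
    have n1000 : ‖(1000 : ℝ)‖ = 1000 := by norm_num
    rw [n1000, norm_sub_rev x3 x1] at t
    have t1 : (‖x1 - x3‖ ^ 2)⁻¹ ≤ ((98/100 : ℝ) ^ 2)⁻¹ := by gcongr
    have t2 : (‖x3 - x2‖ ^ 2)⁻¹ ≤ ((198/100 : ℝ) ^ 2)⁻¹ := by gcongr
    norm_num at t1 t2 t ⊢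
    linarith
  have q4 : ‖x3 + u‖ ^ 2 ≤ (13/10000) ^ 2 := by gcongr
  have i12 : ‖x1 - x2‖⁻¹ ≤ (98/100 : ℝ)⁻¹ := by gcongr
  have i13 : ‖x1 - x3‖⁻¹ ≤ (98/100 : ℝ)⁻¹ := by gcongr
  have i23 : ‖x3 - x2‖⁻¹ ≤ (198/100 : ℝ)⁻¹ := by gcongr
  have j12 : (102/100 : ℝ)⁻¹ ≤ ‖x1 - x2‖⁻¹ := by
    apply inv_anti₀ (by linarith) a2
  have j13 : (102/100 : ℝ)⁻¹ ≤ ‖x1 - x3‖⁻¹ := by
    apply inv_anti₀ (by linarith) a4
  have j23 : (202/100 : ℝ)⁻¹ ≤ ‖x3 - x2‖⁻¹ := by
    apply inv_anti₀ (by linarith) a6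
  have s23 : ‖x2 - x3‖ = ‖x3 - x2‖ := norm_sub_rev _ _
  simp only [cc, s23]
  norm_num at *
  refine ⟨by linarith, by linarith, by linarith, by linarith⟩

lemma Phi_bounds (i : Idx) (x : R3) (hx : ‖x‖ ≤ 1 / 10 ^ 6) :
    0 ≤ Phi i x ∧ Phi i x ≤ (pot i : ℝ) / 1000 := by
  rcases i with _ | b | b
  · obtain ⟨h1, h2, h3, h4⟩ := br_numeric (norm_uu true) (br_TS true x hx)
    simp only [Phi, pot]
    constructor
    · linarith
    · norm_num
  · obtain ⟨h1, h2, h3, h4⟩ := br_numeric (norm_uu b) (br_TS b x hx)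
    simp only [Phi, pot]
    have p1 := sq_nonneg ‖x‖
    have p2 := sq_nonneg ‖SS b x + uu b‖
    constructor
    · linarith
    · norm_num; linarith
  · obtain ⟨h1, h2, h3, h4⟩ := br_numeric (norm_uu b) (br_TS b x hx)
    simp only [Phi, pot]
    constructor
    · linarith
    · norm_num

end Vale.Agent.P121
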