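import Mathlib
import Vale.Agent.P121.Cluster

set_option autoImplicit false

namespace Vale.Agent.P121

open MeasureTheory

/-- the index of a particle in a branch -/
def idx : Bool × Fin 3 → Idx
  | (_, 0) => .o
  | (b, 1) => .p b
  | (b, 2) => .m b

/-- rotation of the particles in a branch -/
def rot : (Bool × Fin 3) ≃ (Bool × Fin 3) := Equiv.prodCongr (Equiv.refl _) (Equiv.addRight 1)

/-- uniform measure on the six labels -/
noncomputable def u6 : Measure (Bool × Fin 3) := (6 : ENNReal)⁻¹ • ∑ f : Bool × Fin 3, Measure.dirac f

/-- weights of the clusters -/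
noncomputable def ww : Measure Idx := u6.map idx

instance : DiscreteMeasurableSpace (Bool × Fin 3) := inferInstance

lemma measurable_idx : Measurable idx := Measurable.of_discrete

lemma measurable_rot : Measurable rot := Measurable.of_discrete

lemma u6_rot : u6.map rot = u6 := by
  unfold u6
  rw [Measure.map_smul, ← Measure.mapₗ_apply_of_measurable measurable_rot, map_sum]
  congr 1
  simp_rw [Measure.mapₗ_apply_of_measurable measurable_rot, Measure.map_dirac' measurable_rot]
  exact Equiv.sum_comp rot (fun f => Measure.dirac f)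

lemma six_facts : (6 : ENNReal)⁻¹ + 6⁻¹ = 6⁻¹ * 2 ∧ (6 : ENNReal)⁻¹ * 3 + 6⁻¹ * 3 = 1 := by
  constructor
  · ring
  · rw [← mul_add, show (3 : ENNReal) + 3 = 6 by norm_num]
    exact ENNReal.inv_mul_cancel (by norm_num) (by norm_num)

instance : IsProbabilityMeasure u6 := by
  constructor
  unfold u6
  simp [Fintype.sum_prod_type]
  exact six_facts.2

instance : IsProbabilityMeasure ww := Measure.isProbabilityMeasure_map measurable_idx.aemeasurable

lemma ww_p (b : Bool) : ww {Idx.p b} = 6⁻¹ := by
  rw [ww, Measure.map_apply measurable_idx (MeasurableSet.singleton _)]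
  unfold u6
  cases b <;> simp [Fintype.sum_prod_type, Fin.sum_univ_three, idx, Set.indicator]

lemma ww_m (b : Bool) : ww {Idx.m b} = 6⁻¹ := by
  rw [ww, Measure.map_apply measurable_idx (MeasurableSet.singleton _)]
  unfold u6
  cases b <;> simp [Fintype.sum_prod_type, Fin.sum_univ_three, idx, Set.indicator]

lemma ww_o : ww {Idx.o} = 6⁻¹ * 2 := by
  rw [ww, Measure.map_apply measurable_idx (MeasurableSet.singleton _)]
  unfold u6
  simp [Fintype.sum_prod_type, Fin.sum_univ_three, idx, Set.indicator]
  exact six_facts.1

lemma special_idx (f : Bool × Fin 3) : Special (idx f) (idx (rot f)) (idx (rot (rot f))) := by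
  revert f
  decide

/-- combinatorics of a branch -/
lemma count_idx (b : Bool) : ∀ i j k : Idx, Special i j k → (i = .o → (j = .p b ∨ j = .m b)) →
    (if j = .p b then (1 : ℕ) else 0) + (if k = .p b then 1 else 0) =
      (if i = .m b then 1 else 0) + (if i = .o then 1 else 0) := by
  revert b
  decide

section noMonge

variable {α : Type*} [MeasurableSpace α] (lam : Measure α) [IsProbabilityMeasure lam]

lemma no_monge (T2 T3 : Idx × α → Idx × α) (h2 : Measurable T2) (h3 : Measurable T3)
    (m2 : (ww.prod lam).map T2 = ww.prod lam) (m3 : (ww.prod lam).map T3 = ww.prod lam)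
    (hae : ∀ᵐ z ∂(ww.prod lam), Special z.1 (T2 z).1 (T3 z).1 ∧ (T2 z).2 = z.2 ∧ (T3 z).2 = z.2) :
    False := by
  classical
  set U : Bool → Set α := fun b => {x | (T2 (Idx.o, x)).1 = Idx.p b ∨ (T2 (Idx.o, x)).1 = Idx.m b} with hU
  have mU : ∀ b, MeasurableSet (U b) := by
    intro b
    have m : Measurable fun x => (T2 (Idx.o, x)).1 := by fun_prop
    exact (m (MeasurableSet.of_discrete (s := {Idx.p b, Idx.m b})))
  have key : ∀ b, lam (U b) = 0 := by
    intro b
    set A : Idx → Set (Idx × α) := fun i => {i} ×ˢ (U b) with hA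
    have mA : ∀ i, MeasurableSet (A i) := fun i => (MeasurableSet.singleton i).prod (mU b)
    have id1 : ∀ᵐ z ∂(ww.prod lam), (T2 ⁻¹' (A (.p b))).indicator (1 : Idx × α → ENNReal) z +
        (T3 ⁻¹' (A (.p b))).indicator (1 : Idx × α → ENNReal) z =
        (A (.m b)).indicator (1 : Idx × α → ENNReal) z + (A .o).indicator (1 : Idx × α → ENNReal) z := by
      filter_upwards [hae] with z hz
      obtain ⟨h, e2, e3⟩ := hz
      by_cases hx : z.2 ∈ U b
      · have c := count_idx b z.1 (T2 z).1 (T3 z).1 h (by
          intro hi
          have : z = (Idx.o, z.2) := Prod.ext hi rfl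
          rw [this]
          exact hx)
        have c' : (((if (T2 z).1 = .p b then (1 : ℕ) else 0) + (if (T3 z).1 = .p b then 1 else 0) : ℕ) : ENNReal) =
          (((if z.1 = .m b then 1 else 0) + (if z.1 = .o then 1 else 0) : ℕ) : ENNReal) := by rw [c]
        simp only [Set.indicator, Set.mem_preimage, hA, Set.mem_prod, Set.mem_singleton_iff, e2, e3, hx, and_true,
          Pi.one_apply]
        push_cast at c'
        exact c'
      · simp only [Set.indicator, Set.mem_preimage, hA, Set.mem_prod, Set.mem_singleton_iff, e2, e3, hx, and_false,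
          if_false]
    have id2 := lintegral_congr_ae id1
    have mi : ∀ s : Set (Idx × α), MeasurableSet s → Measurable (s.indicator (1 : Idx × α → ENNReal)) :=
      fun s hs => measurable_one.indicator hs
    rw [lintegral_add_left (mi _ (h2 (mA _))), lintegral_add_left (mi _ (mA _)),
      lintegral_indicator_one (h2 (mA _)), lintegral_indicator_one (h3 (mA _)),
      lintegral_indicator_one (mA _), lintegral_indicator_one (mA _),
      ← Measure.map_apply h2 (mA _), ← Measure.map_apply h3 (mA _), m2, m3] at id2
    simp only [hA, Measure.prod_prod, ww_p, ww_m, ww_o] at id2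
    have id3 := (ENNReal.add_right_inj (by finiteness)).mp id2
    rw [mul_assoc, ENNReal.mul_right_inj (by simp) (by finiteness), two_mul] at id3
    have id4 : lam (U b) + 0 = lam (U b) + lam (U b) := by rw [add_zero]; exact id3
    exact ((ENNReal.add_right_inj (by finiteness)).mp id4).symm
  have null : (ww.prod lam) ({Idx.o} ×ˢ (U true ∪ U false)ᶜ) = 0 := by
    refine measure_mono_null ?_ (ae_iff.mp hae)
    rintro ⟨i, x⟩ ⟨hi, hx⟩
    simp only [Set.mem_singleton_iff] at hi
    subst hi
    simp only [Set.mem_setOf_eq]
    rintro ⟨⟨b, h⟩, -, -⟩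
    apply hx
    simp only at h
    have h' : (T2 (Idx.o, x)).1 = Idx.p b ∨ (T2 (Idx.o, x)).1 = Idx.m b := by
      rcases h with h | h | h | h | h | h
      · exact Or.inl h.2.1
      · exact Or.inr h.2.1
      · exact absurd h.1 (by simp)
      · exact absurd h.1 (by simp)
      · exact absurd h.1 (by simp)
      · exact absurd h.1 (by simp)
    cases b
    · exact Or.inr h'
    · exact Or.inl h'
  rw [Measure.prod_prod, ww_o, mul_eq_zero] at null
  have null' : lam (U true ∪ U false)ᶜ = 0 := by
    rcases null with h | h
    · simp at h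
    · exact h
  have un : lam (U true ∪ U false) = 0 := measure_union_null (key true) (key false)
  have : lam Set.univ = 0 := by
    rw [← Set.union_compl_self (U true ∪ U false)]
    exact measure_union_null un null'
  rw [measure_univ] at this
  exact one_ne_zero this

end noMonge

end Vale.Agent.P121
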