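import Mathlib
import Vale.Agent.P121.Count

set_option autoImplicit false

namespace Vale.Agent.P121

open MeasureTheory

lemma cc_swap12 (x y z : R3) : cc y x z = cc x y z := by
  simp only [cc, norm_sub_rev y x]; ring

lemma cc_swap23 (x y z : R3) : cc x z y = cc x y z := by
  simp only [cc, norm_sub_rev z y]; ring

lemma Phi_sum (b : Bool) (x : R3) : Phi .o x + Phi (.p b) x + Phi (.m b) x = cc x (TT b x) (SS b x) := by
  simp only [Phi]; ring

lemma core (b : Bool) (x y z : R3) (hy : ‖y‖ ≤ 1 / 10 ^ 6) (hz : ‖z‖ ≤ 1 / 10 ^ 6)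
    (h12 : x ≠ TT b y) (h13 : x ≠ SS b z) (h23 : TT b y ≠ SS b z) :
    Phi .o x + Phi (.p b) y + Phi (.m b) z ≤ cc x (TT b y) (SS b z) ∧
    (Phi .o x + Phi (.p b) y + Phi (.m b) z = cc x (TT b y) (SS b z) → y = x ∧ z = x) := by
  have D := (br_TS b y hy).dual (norm_uu b) x (SS b z) h12 h13 h23.symm
  have p1 := sq_nonneg ‖x - y‖
  have p2 := sq_nonneg ‖SS b z - SS b y‖
  simp only [Phi]
  constructor
  · linarith
  · intro he
    have e1 : ‖x - y‖ ^ 2 = 0 := by linarith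
    have e2 : ‖SS b z - SS b y‖ ^ 2 = 0 := by linarith
    have e3 : y = x := by
      have := pow_eq_zero_iff (two_ne_zero) |>.mp e1
      rw [norm_eq_zero, sub_eq_zero] at this
      exact this.symm
    have e4 : ‖SS b z - SS b y‖ = 0 := pow_eq_zero_iff (two_ne_zero) |>.mp e2
    have st := ((br_TS b z hz).stab (norm_uu b) (br_TS b y hy)).2.1
    rw [e4, mul_zero] at st
    have e5 : z = y := by
      have := le_antisymm st (norm_nonneg _)
      rwa [norm_eq_zero, sub_eq_zero] at this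
    exact ⟨e3, e5.trans e3⟩

lemma real_dual (i j k : Idx) (x y z : R3) (hx : ‖x‖ ≤ 1 / 10 ^ 6) (hy : ‖y‖ ≤ 1 / 10 ^ 6)
    (hz : ‖z‖ ≤ 1 / 10 ^ 6)
    (hij : JJ i x ≠ JJ j y) (hik : JJ i x ≠ JJ k z) (hjk : JJ j y ≠ JJ k z) :
    Phi i x + Phi j y + Phi k z ≤ cc (JJ i x) (JJ j y) (JJ k z) ∧
    (Phi i x + Phi j y + Phi k z = cc (JJ i x) (JJ j y) (JJ k z) → Special i j k ∧ y = x ∧ z = x) := by
  by_cases hS : Special i j k
  · obtain ⟨b, h⟩ := id hS
    rcases h with ⟨rfl, rfl, rfl⟩ | ⟨rfl, rfl, rfl⟩ | ⟨rfl, rfl, rfl⟩ | ⟨rfl, rfl, rfl⟩ | ⟨rfl, rfl, rfl⟩ | ⟨rfl, rfl, rfl⟩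
    · -- o p m
      obtain ⟨c1, c2⟩ := core b x y z hy hz hij hik hjk
      refine ⟨c1, fun he => ⟨hS, c2 he⟩⟩
    · -- o m p
      obtain ⟨c1, c2⟩ := core b x z y hz hy hik hij hjk.symm
      have e : cc (JJ .o x) (JJ (.m b) y) (JJ (.p b) z) = cc x (TT b z) (SS b y) := cc_swap23 _ _ _
      rw [e]
      refine ⟨by linarith, fun he => ⟨hS, ?_⟩⟩
      obtain ⟨d1, d2⟩ := c2 (by linarith)
      exact ⟨d2, d1⟩
    · -- p o m
      obtain ⟨c1, c2⟩ := core b y x z hx hz hij.symm hjk hik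
      have e : cc (JJ (.p b) x) (JJ .o y) (JJ (.m b) z) = cc y (TT b x) (SS b z) := cc_swap12 _ _ _
      rw [e]
      refine ⟨by linarith, fun he => ⟨hS, ?_⟩⟩
      obtain ⟨d1, d2⟩ := c2 (by linarith)
      exact ⟨d1.symm, d2.trans d1.symm⟩
    · -- m o p
      obtain ⟨c1, c2⟩ := core b y z x hz hx hjk hij.symm hik.symm
      have e : cc (JJ (.m b) x) (JJ .o y) (JJ (.p b) z) = cc y (TT b z) (SS b x) := by
        rw [cc_swap12, cc_swap23]; rfl
      rw [e]
      refine ⟨by linarith, fun he => ⟨hS, ?_⟩⟩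
      obtain ⟨d1, d2⟩ := c2 (by linarith)
      exact ⟨d2.symm, d1.trans d2.symm⟩
    · -- p m o
      obtain ⟨c1, c2⟩ := core b z x y hx hy hik.symm hjk.symm hij
      have e : cc (JJ (.p b) x) (JJ (.m b) y) (JJ .o z) = cc z (TT b x) (SS b y) := by
        rw [cc_swap23, cc_swap12]; rfl
      rw [e]
      refine ⟨by linarith, fun he => ⟨hS, ?_⟩⟩
      obtain ⟨d1, d2⟩ := c2 (by linarith)
      exact ⟨d2.trans d1.symm, d1.symm⟩
    · -- m p o
      obtain ⟨c1, c2⟩ := core b z y x hy hx hjk.symm hik.symm hij.symm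
      have e : cc (JJ (.m b) x) (JJ (.p b) y) (JJ .o z) = cc z (TT b y) (SS b x) := by
        rw [cc_swap23, cc_swap12, cc_swap23]; rfl
      rw [e]
      refine ⟨by linarith, fun he => ⟨hS, ?_⟩⟩
      obtain ⟨d1, d2⟩ := c2 (by linarith)
      exact ⟨d1.trans d2.symm, d2.symm⟩
  · have t := (table i j k).resolve_left hS
    have t' : ((pot i + pot j + pot k : ℕ) : ℝ) < ((kap i j + kap i k + kap j k : ℕ) : ℝ) := by
      exact_mod_cast t
    push_cast at t'
    have b1 := (Phi_bounds i x hx).2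
    have b2 := (Phi_bounds j y hy).2
    have b3 := (Phi_bounds k z hz).2
    have l1 := inv_lower i j x y hx hy hij
    have l2 := inv_lower i k x z hx hz hik
    have l3 := inv_lower j k y z hy hz hjk
    have : Phi i x + Phi j y + Phi k z < cc (JJ i x) (JJ j y) (JJ k z) := by
      simp only [cc]
      linarith
    exact ⟨this.le, fun he => absurd he this.ne⟩

lemma pairCost_self (x : R3) : pairCost x x = ⊤ := by simp [pairCost]

lemma pairCost_ne {x y : R3} (h : x ≠ y) : pairCost x y = ENNReal.ofReal ‖x - y‖⁻¹ := by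
  rw [pairCost, ENNReal.ofReal_inv_of_pos (norm_pos_iff.mpr (sub_ne_zero.mpr h))]

lemma cost_ne {x y z : R3} (h1 : x ≠ y) (h2 : x ≠ z) (h3 : y ≠ z) :
    cost x y z = ENNReal.ofReal (cc x y z) := by
  rw [cost, pairCost_ne h1, pairCost_ne h2, pairCost_ne h3, cc,
    ENNReal.ofReal_add (by positivity) (by positivity), ENNReal.ofReal_add (by positivity) (by positivity)]

/-- the small ball -/
abbrev OO : Type := {x : R3 // ‖x‖ ≤ 1 / 10 ^ 6}

/-- the parametrization of the support -/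
noncomputable def J (z : Idx × OO) : R3 := JJ z.1 z.2.1

/-- the potential on the parameter space -/
noncomputable def PP (z : Idx × OO) : ENNReal := ENNReal.ofReal (Phi z.1 z.2.1)

lemma PP_add (z1 z2 z3 : Idx × OO) : PP z1 + PP z2 + PP z3 =
    ENNReal.ofReal (Phi z1.1 z1.2.1 + Phi z2.1 z2.2.1 + Phi z3.1 z3.2.1) := by
  have b1 := (Phi_bounds z1.1 z1.2.1 z1.2.2).1
  have b2 := (Phi_bounds z2.1 z2.2.1 z2.2.2).1
  have b3 := (Phi_bounds z3.1 z3.2.1 z3.2.2).1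
  rw [PP, PP, PP, ENNReal.ofReal_add (by positivity) b3, ENNReal.ofReal_add b1 b2]

lemma PP_le (z : Idx × OO) : PP z ≤ ENNReal.ofReal (3/2) := by
  apply ENNReal.ofReal_le_ofReal
  refine (Phi_bounds z.1 z.2.1 z.2.2).2.trans ?_
  rcases z.1 with _ | b | b <;> norm_num [pot]

lemma dual_le (z1 z2 z3 : Idx × OO) : PP z1 + PP z2 + PP z3 ≤ cost (J z1) (J z2) (J z3) := by
  by_cases h1 : J z1 = J z2
  · simp [cost, h1, pairCost_self]
  by_cases h2 : J z1 = J z3
  · simp [cost, h2, pairCost_self]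
  by_cases h3 : J z2 = J z3
  · simp [cost, h3, pairCost_self]
  rw [cost_ne h1 h2 h3, PP_add]
  apply ENNReal.ofReal_le_ofReal
  exact (real_dual _ _ _ _ _ _ z1.2.2 z2.2.2 z3.2.2 h1 h2 h3).1

lemma dual_eq (z1 z2 z3 : Idx × OO) (he : PP z1 + PP z2 + PP z3 = cost (J z1) (J z2) (J z3)) :
    Special z1.1 z2.1 z3.1 ∧ z2.2 = z1.2 ∧ z3.2 = z1.2 := by
  have fin : PP z1 + PP z2 + PP z3 ≠ ⊤ := by rw [PP_add]; exact ENNReal.ofReal_ne_top
  by_cases h1 : J z1 = J z2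
  · exfalso; apply fin; rw [he]; simp [cost, h1, pairCost_self]
  by_cases h2 : J z1 = J z3
  · exfalso; apply fin; rw [he]; simp [cost, h2, pairCost_self]
  by_cases h3 : J z2 = J z3
  · exfalso; apply fin; rw [he]; simp [cost, h3, pairCost_self]
  rw [cost_ne h1 h2 h3, PP_add] at he
  have b1 := (Phi_bounds z1.1 z1.2.1 z1.2.2).1
  have b2 := (Phi_bounds z2.1 z2.2.1 z2.2.2).1
  have b3 := (Phi_bounds z3.1 z3.2.1 z3.2.2).1
  rw [ENNReal.ofReal_eq_ofReal_iff (by positivity) (by unfold cc; positivity)] at he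
  obtain ⟨r1, r2, r3⟩ := (real_dual _ _ _ _ _ _ z1.2.2 z2.2.2 z3.2.2 h1 h2 h3).2 he
  exact ⟨r1, Subtype.ext r2, Subtype.ext r3⟩

lemma dual_attained (i j k : Idx) (x : OO) (hS : Special i j k) :
    PP (i, x) + PP (j, x) + PP (k, x) = cost (J (i, x)) (J (j, x)) (J (k, x)) := by
  have main : ∀ b, PP (.o, x) + PP (.p b, x) + PP (.m b, x) = cost (J (.o, x)) (J (.p b, x)) (J (.m b, x)) := by
    intro b
    have B := br_TS b x.1 x.2
    obtain ⟨a1, a2⟩ := B.norm12 (norm_uu b)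
    obtain ⟨a3, a4⟩ := B.norm13 (norm_uu b)
    obtain ⟨a5, a6⟩ := B.norm32 (norm_uu b)
    have n12 : J (.o, x) ≠ J (.p b, x) := sub_ne_zero.mp (ne_zero_of_le (by norm_num) a1)
    have n13 : J (.o, x) ≠ J (.m b, x) := sub_ne_zero.mp (ne_zero_of_le (by norm_num) a3)
    have n23 : J (.p b, x) ≠ J (.m b, x) := (sub_ne_zero.mp (ne_zero_of_le (by norm_num) a5)).symm
    rw [cost_ne n12 n13 n23, PP_add]
    exact congrArg ENNReal.ofReal (Phi_sum b x.1)
  have s12 : ∀ x y z : R3, cost y x z = cost x y z := by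
    intro x y z
    simp only [cost, pairCost, norm_sub_rev y x]; ring
  have s23 : ∀ x y z : R3, cost x z y = cost x y z := by
    intro x y z
    simp only [cost, pairCost, norm_sub_rev z y]; ring
  obtain ⟨b, h⟩ := hS
  have m := main b
  rcases h with ⟨rfl, rfl, rfl⟩ | ⟨rfl, rfl, rfl⟩ | ⟨rfl, rfl, rfl⟩ | ⟨rfl, rfl, rfl⟩ | ⟨rfl, rfl, rfl⟩ | ⟨rfl, rfl, rfl⟩
  · exact m
  · rw [s23, ← m]; ring
  · rw [s12, ← m]; ring
  · rw [s12, s23, ← m]; ring
  · rw [s23, s12, ← m]; ring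
  · rw [s23, s12, s23, ← m]; ring

end Vale.Agent.P121
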