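import Mathlib
import Vale.Agent.P121.Dual

set_option autoImplicit false

namespace Vale.Agent.P121

open MeasureTheory

lemma ctr_sep (i j : Idx) (h : i ≠ j) : 1 ≤ ‖ctr i - ctr j‖ := by
  have perp : ∀ b c : Bool, b ≠ c → 1 ≤ ‖uu b - uu c‖ := by
    intro b c h
    have e : ‖uu b - uu c‖ ^ 2 = 2 := by
      rw [norm_sub_sq_real, norm_uu, norm_uu, inner_uu b c h]
      norm_num
    nlinarith [norm_nonneg (uu b - uu c)]
  have perp' : ∀ b c : Bool, 1 ≤ ‖uu b + uu c‖ := by
    intro b c
    by_cases h : b = c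
    · subst h
      rw [← two_smul ℝ (uu b), norm_smul, norm_uu]; norm_num
    · have e : ‖uu b + uu c‖ ^ 2 = 2 := by
        rw [norm_add_sq_real, norm_uu, norm_uu, inner_uu b c h]
        norm_num
      nlinarith [norm_nonneg (uu b + uu c)]
  rcases i with _ | b | b <;> rcases j with _ | c | c
  · exact absurd rfl h
  · simp [ctr, norm_uu]
  · simp [ctr, norm_uu]
  · simp [ctr, norm_uu]
  · exact perp b c (fun e => h (by rw [e]))
  · simpa [ctr] using perp' b c
  · simp [ctr, norm_uu]
  · have e : ctr (.m b) - ctr (.p c) = -(uu b + uu c) := by simp only [ctr]; abel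
    rw [e, norm_neg]
    exact perp' b c
  · have e : ctr (.m b) - ctr (.m c) = -(uu b - uu c) := by simp only [ctr]; abel
    rw [e, norm_neg]
    exact perp b c (fun e => h (by rw [e]))

/-- on each cluster the parametrization expands distances up to a factor -/
lemma JJ_anti (i : Idx) (x y : R3) (hx : ‖x‖ ≤ 1 / 10 ^ 6) (hy : ‖y‖ ≤ 1 / 10 ^ 6) :
    ‖x - y‖ ≤ 30 * ‖JJ i x - JJ i y‖ := by
  rcases i with _ | b | b
  · simp only [JJ]
    linarith [norm_nonneg (x - y)]
  · have := ((br_TS b x hx).stab (norm_uu b) (br_TS b y hy)).1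
    simp only [JJ]
    linarith [norm_nonneg (TT b x - TT b y)]
  · exact ((br_TS b x hx).stab (norm_uu b) (br_TS b y hy)).2.1

lemma measurable_J : Measurable J := by
  apply measurable_from_prod_countable_right
  intro i
  rcases i with _ | b | b
  · exact measurable_subtype_coe
  · exact (measurable_TT b).comp measurable_subtype_coe
  · exact (measurable_SS b).comp measurable_subtype_coe

lemma injective_J : Function.Injective J := by
  rintro ⟨i, x⟩ ⟨j, y⟩ h
  simp only [J] at h
  have hij : i = j := by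
    by_contra hne
    have h1 := JJ_near i x.1 x.2
    have h2 := JJ_near j y.1 y.2
    have h3 := ctr_sep i j hne
    have e : ctr i - ctr j = (JJ j y.1 - ctr j) - (JJ i x.1 - ctr i) := by
      rw [h]; abel
    rw [e] at h3
    have := norm_sub_le (JJ j y.1 - ctr j) (JJ i x.1 - ctr i)
    linarith
  subst hij
  have := JJ_anti i x.1 y.1 x.2 y.2
  rw [h, sub_self, norm_zero, mul_zero] at this
  have e := le_antisymm this (norm_nonneg _)
  rw [norm_eq_zero, sub_eq_zero] at e
  exact Prod.ext rfl (Subtype.ext e)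

lemma measurableSet_OO : MeasurableSet {x : R3 | ‖x‖ ≤ 1 / 10 ^ 6} :=
  measurableSet_le measurable_norm measurable_const

instance : StandardBorelSpace OO := measurableSet_OO.standardBorel

instance : Nonempty OO := ⟨⟨0, by simp⟩⟩

instance : Nonempty Idx := ⟨Idx.o⟩

lemma membedding_J : MeasurableEmbedding J := measurable_J.measurableEmbedding injective_J

/-- a measurable left inverse of the parametrization -/
noncomputable def RR : R3 → Idx × OO := membedding_J.invFun

lemma measurable_RR : Measurable RR := membedding_J.measurable_invFun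

lemma RR_J (z : Idx × OO) : RR (J z) = z := membedding_J.leftInverse_invFun z

lemma measurable_PP : Measurable PP := by
  apply measurable_from_prod_countable_right
  intro i
  have mT := fun b => (measurable_TT b).comp (measurable_subtype_coe (p := fun x : R3 => ‖x‖ ≤ 1 / 10 ^ 6))
  have mS := fun b => (measurable_SS b).comp (measurable_subtype_coe (p := fun x : R3 => ‖x‖ ≤ 1 / 10 ^ 6))
  have mI := measurable_subtype_coe (p := fun x : R3 => ‖x‖ ≤ 1 / 10 ^ 6)
  apply Measurable.ennreal_ofReal
  rcases i with _ | b | b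
  · exact (measurable_const.sub (measurable_const.mul (mI.norm.pow_const 2)))
  · have c : Measurable fun x : OO => cc x.1 (TT b x.1) (SS b x.1) := by
      unfold cc
      exact (((mI.sub (mT b)).norm.inv).add ((mI.sub (mS b)).norm.inv)).add (((mT b).sub (mS b)).norm.inv)
    exact (c.sub (measurable_const.sub (measurable_const.mul (mI.norm.pow_const 2)))).sub
      (measurable_const.sub (measurable_const.mul (((mS b).add_const _).norm.pow_const 2)))
  · exact (measurable_const.sub (measurable_const.mul (((mS b).add_const _).norm.pow_const 2)))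

lemma measurable_cost : Measurable (fun p : R3 × R3 × R3 => cost p.1 p.2.1 p.2.2) := by
  unfold cost pairCost
  fun_prop

/-- normalized Lebesgue measure on the small ball -/
noncomputable def lam : Measure OO :=
  (volume {x : R3 | ‖x‖ ≤ 1 / 10 ^ 6})⁻¹ • Measure.comap Subtype.val volume

lemma OO_eq_ball : {x : R3 | ‖x‖ ≤ 1 / 10 ^ 6} = Metric.closedBall 0 (1 / 10 ^ 6) := by
  ext x; simp

lemma vol_ne_zero : volume {x : R3 | ‖x‖ ≤ 1 / 10 ^ 6} ≠ 0 := by
  rw [OO_eq_ball]
  exact (Metric.measure_closedBall_pos volume (0 : R3) (by positivity)).ne'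

lemma vol_ne_top : volume {x : R3 | ‖x‖ ≤ 1 / 10 ^ 6} ≠ ⊤ := by
  rw [OO_eq_ball]
  exact measure_closedBall_lt_top.ne

instance : IsProbabilityMeasure lam := by
  constructor
  rw [lam, Measure.smul_apply, smul_eq_mul]
  have e : Measure.comap (Subtype.val : OO → R3) volume Set.univ = volume {x : R3 | ‖x‖ ≤ 1 / 10 ^ 6} := by
    have := comap_subtype_coe_apply measurableSet_OO (volume : Measure R3) Set.univ
    rw [Set.image_univ, Subtype.range_coe_subtype] at this
    exact this
  rw [e]
  exact ENNReal.inv_mul_cancel vol_ne_zero vol_ne_top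

lemma comap_le (i : Idx) (s : Set R3) :
    Measure.comap (Subtype.val : OO → R3) volume {x : OO | JJ i x.1 ∈ s} ≤ (30 : ENNReal) ^ 3 * volume s := by
  have h1 : Measure.comap (Subtype.val : OO → R3) volume {x : OO | JJ i x.1 ∈ s} =
      volume (Subtype.val '' {x : OO | JJ i x.1 ∈ s}) :=
    comap_subtype_coe_apply measurableSet_OO (volume : Measure R3) _
  have anti : AntilipschitzWith 30 (fun x : OO => JJ i x.1) := by
    apply AntilipschitzWith.of_le_mul_dist
    intro x y
    rw [dist_eq_norm, Subtype.dist_eq, dist_eq_norm]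
    exact JJ_anti i x.1 y.1 x.2 y.2
  have h2 := anti.hausdorffMeasure_preimage_le (d := ((3 : ℕ) : ℝ)) (by positivity) s
  have h3 := (isometry_subtype_coe (s := {x : R3 | ‖x‖ ≤ 1 / 10 ^ 6})).hausdorffMeasure_image
    (d := ((3 : ℕ) : ℝ)) (Or.inl (by positivity)) {x : OO | JJ i x.1 ∈ s}
  rw [h1, ← EuclideanSpace.euclideanHausdorffMeasure_eq_volume 3, Measure.euclideanHausdorffMeasure_def,
    Measure.smul_apply, Measure.smul_apply]
  have h4 : Measure.hausdorffMeasure ((3 : ℕ) : ℝ) (Subtype.val '' {x : OO | JJ i x.1 ∈ s}) ≤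
      (30 : ENNReal) ^ 3 * Measure.hausdorffMeasure ((3 : ℕ) : ℝ) s := by
    refine (le_of_eq h3).trans (h2.trans (le_of_eq ?_))
    norm_num
  rw [ENNReal.smul_def, ENNReal.smul_def, smul_eq_mul, smul_eq_mul, mul_left_comm]
  gcongr

/-- the measure -/
noncomputable def mu : Measure R3 := (ww.prod lam).map J

instance : IsProbabilityMeasure mu := Measure.isProbabilityMeasure_map measurable_J.aemeasurable

lemma mu_le : ∃ C : NNReal, mu ≤ C • (volume : Measure R3) := by
  refine ⟨((volume {x : R3 | ‖x‖ ≤ 1 / 10 ^ 6})⁻¹ * (30 : ENNReal) ^ 3).toNNReal, ?_⟩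
  rw [Measure.le_iff]
  intro s hs
  have fin : (volume {x : R3 | ‖x‖ ≤ 1 / 10 ^ 6})⁻¹ * (30 : ENNReal) ^ 3 ≠ ⊤ :=
    ENNReal.mul_ne_top (ENNReal.inv_ne_top.mpr vol_ne_zero) (by norm_num)
  rw [Measure.smul_apply, ENNReal.smul_def, ENNReal.coe_toNNReal fin, smul_eq_mul, mu,
    Measure.map_apply measurable_J hs, Measure.prod_apply (measurable_J hs)]
  calc ∫⁻ i, lam (Prod.mk i ⁻¹' (J ⁻¹' s)) ∂ww
      ≤ ∫⁻ _, (volume {x : R3 | ‖x‖ ≤ 1 / 10 ^ 6})⁻¹ * (30 : ENNReal) ^ 3 * volume s ∂ww := by
        apply lintegral_mono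
        intro i
        show lam {x : OO | JJ i x.1 ∈ s} ≤ _
        rw [lam, Measure.smul_apply, smul_eq_mul, mul_assoc]
        exact mul_le_mul' le_rfl (comap_le i s)
    _ = _ := by rw [lintegral_const, measure_univ, mul_one]

lemma mu_compl : mu (Metric.closedBall 0 2)ᶜ = 0 := by
  rw [mu, Measure.map_apply measurable_J Metric.isClosed_closedBall.measurableSet.compl]
  convert measure_empty (μ := ww.prod lam)
  ext z
  simp only [Set.mem_preimage, Set.mem_compl_iff, Metric.mem_closedBall, dist_zero_right, not_le,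
    Set.mem_empty_iff_false, iff_false, not_lt, J]
  have h1 := JJ_near z.1 z.2.1 z.2.2
  have h2 : ‖ctr z.1‖ ≤ 1 := by
    rcases z.1 with _ | b | b <;> simp [ctr, norm_uu]
  have e : JJ z.1 z.2.1 = (JJ z.1 z.2.1 - ctr z.1) + ctr z.1 := by abel
  rw [e]
  have := norm_add_le (JJ z.1 z.2.1 - ctr z.1) (ctr z.1)
  linarith

end Vale.Agent.P121
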