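import Mathlib
import Vale.Agent.P121.Space

set_option autoImplicit false

namespace Vale.Agent.P121

open MeasureTheory

/-- the value of the problem -/
noncomputable def KK : ENNReal := ∫⁻ z, PP z ∂(ww.prod lam) + ∫⁻ z, PP z ∂(ww.prod lam) + ∫⁻ z, PP z ∂(ww.prod lam)

lemma int_PP_ne_top : ∫⁻ z, PP z ∂(ww.prod lam) ≠ ⊤ := by
  have : ∫⁻ z, PP z ∂(ww.prod lam) ≤ ∫⁻ _, ENNReal.ofReal (3/2) ∂(ww.prod lam) :=
    lintegral_mono fun z => PP_le z
  rw [lintegral_const, measure_univ, mul_one] at this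
  exact ne_top_of_le_ne_top ENNReal.ofReal_ne_top this

lemma KK_ne_top : KK ≠ ⊤ := by
  have := int_PP_ne_top
  unfold KK
  finiteness

section gen

variable {Ω : Type*} [MeasurableSpace Ω] (ν : Measure Ω) (X1 X2 X3 : Ω → R3)
  (m1 : Measurable X1) (m2 : Measurable X2) (m3 : Measurable X3)
  (l1 : ν.map X1 = mu) (l2 : ν.map X2 = mu) (l3 : ν.map X3 = mu)

include m1 l1 in
lemma int_phi : ∫⁻ ω, PP (RR (X1 ω)) ∂ν = ∫⁻ z, PP z ∂(ww.prod lam) := by
  have mPR : Measurable fun x => PP (RR x) := measurable_PP.comp measurable_RR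
  rw [← lintegral_map mPR m1, l1, mu, lintegral_map mPR measurable_J]
  simp only [RR_J]

include m1 l1 in
lemma ae_JR : ∀ᵐ ω ∂ν, J (RR (X1 ω)) = X1 ω := by
  have hs : MeasurableSet {x : R3 | J (RR x) = x} :=
    measurableSet_eq_fun (measurable_J.comp measurable_RR) measurable_id
  have h : ∀ᵐ x ∂(ν.map X1), J (RR x) = x := by
    rw [l1, mu, ae_map_iff measurable_J.aemeasurable hs]
    filter_upwards with z
    rw [RR_J]
  exact ae_of_ae_map m1.aemeasurable h

include m1 m2 m3 l1 l2 l3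

lemma ae_dual : ∀ᵐ ω ∂ν, PP (RR (X1 ω)) + PP (RR (X2 ω)) + PP (RR (X3 ω)) ≤ cost (X1 ω) (X2 ω) (X3 ω) := by
  filter_upwards [ae_JR ν X1 m1 l1, ae_JR ν X2 m2 l2, ae_JR ν X3 m3 l3] with ω h1 h2 h3
  have := dual_le (RR (X1 ω)) (RR (X2 ω)) (RR (X3 ω))
  rwa [h1, h2, h3] at this

lemma int_sum : ∫⁻ ω, (PP (RR (X1 ω)) + PP (RR (X2 ω)) + PP (RR (X3 ω))) ∂ν = KK := by
  have mPR : Measurable fun x => PP (RR x) := measurable_PP.comp measurable_RR
  have a1 : Measurable fun ω => PP (RR (X1 ω)) := mPR.comp m1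
  have a2 : Measurable fun ω => PP (RR (X2 ω)) := mPR.comp m2
  have a12 : Measurable fun ω => PP (RR (X1 ω)) + PP (RR (X2 ω)) := a1.add a2
  rw [lintegral_add_left a12, lintegral_add_left a1,
    int_phi ν X1 m1 l1, int_phi ν X2 m2 l2, int_phi ν X3 m3 l3]
  rfl

lemma KK_le : KK ≤ ∫⁻ ω, cost (X1 ω) (X2 ω) (X3 ω) ∂ν := by
  rw [← int_sum ν X1 X2 X3 m1 m2 m3 l1 l2 l3]
  exact lintegral_mono_ae (ae_dual ν X1 X2 X3 m1 m2 m3 l1 l2 l3)

lemma meas_cost : Measurable (fun ω => cost (X1 ω) (X2 ω) (X3 ω)) := by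
  unfold cost pairCost
  fun_prop

lemma ae_of_opt0 (h : ∫⁻ ω, cost (X1 ω) (X2 ω) (X3 ω) ∂ν = KK) :
    (fun ω => PP (RR (X1 ω)) + PP (RR (X2 ω)) + PP (RR (X3 ω))) =ᵐ[ν]
      fun ω => cost (X1 ω) (X2 ω) (X3 ω) := by
  have s := int_sum ν X1 X2 X3 m1 m2 m3 l1 l2 l3
  refine ae_eq_of_ae_le_of_lintegral_le (ae_dual ν X1 X2 X3 m1 m2 m3 l1 l2 l3) ?_ ?_ ?_
  · rw [s]; exact KK_ne_top
  · exact (meas_cost ν X1 X2 X3 m1 m2 m3 l1 l2 l3).aemeasurable
  · rw [s, h]

lemma ae_of_opt (h : ∫⁻ ω, cost (X1 ω) (X2 ω) (X3 ω) ∂ν = KK) :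
    ∀ᵐ ω ∂ν, Special (RR (X1 ω)).1 (RR (X2 ω)).1 (RR (X3 ω)).1 ∧ (RR (X2 ω)).2 = (RR (X1 ω)).2 ∧
      (RR (X3 ω)).2 = (RR (X1 ω)).2 := by
  filter_upwards [ae_of_opt0 ν X1 X2 X3 m1 m2 m3 l1 l2 l3 h, ae_JR ν X1 m1 l1, ae_JR ν X2 m2 l2,
    ae_JR ν X3 m3 l3] with ω h0 h1 h2 h3
  apply dual_eq
  rw [h1, h2, h3]
  exact h0

end gen

/-- parametrized particle -/
noncomputable def XX (g : (Bool × Fin 3) → (Bool × Fin 3)) (q : (Bool × Fin 3) × OO) : R3 := J (idx (g q.1), q.2)

lemma measurable_XX (g : (Bool × Fin 3) → (Bool × Fin 3)) : Measurable (XX g) := by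
  have mg : Measurable fun f => idx (g f) := Measurable.of_discrete
  exact measurable_J.comp ((mg.comp measurable_fst).prodMk measurable_snd)

lemma map_XX (g : (Bool × Fin 3) → (Bool × Fin 3)) (hg : u6.map g = u6) : (u6.prod lam).map (XX g) = mu := by
  have mg : Measurable g := Measurable.of_discrete
  have e : XX g = J ∘ (Prod.map (idx ∘ g) id) := rfl
  rw [e, ← Measure.map_map measurable_J ((measurable_idx.comp mg).prodMap measurable_id),
    ← Measure.map_prod_map _ _ (measurable_idx.comp mg) measurable_id, Measure.map_id,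
    ← Measure.map_map measurable_idx mg, hg]
  rfl

lemma kantorovich_mu : kantorovich mu = KK := by
  have r1 : u6.map (fun f => f) = u6 := Measure.map_id
  have r2 : u6.map (fun f => rot f) = u6 := u6_rot
  have r3 : u6.map (fun f => rot (rot f)) = u6 := by
    have : (fun f => rot (rot f)) = rot ∘ rot := rfl
    rw [this, ← Measure.map_map measurable_rot measurable_rot, u6_rot, u6_rot]
  apply le_antisymm
  · -- the optimal plan
    have mX : Measurable fun q => (XX (fun f => f) q, XX (fun f => rot f) q, XX (fun f => rot (rot f)) q) :=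
      (measurable_XX _).prodMk ((measurable_XX _).prodMk (measurable_XX _))
    refine iInf₂_le_of_le ((u6.prod lam).map
      (fun q => (XX (fun f => f) q, XX (fun f => rot f) q, XX (fun f => rot (rot f)) q))) ?_ ?_
    · refine ⟨Measure.isProbabilityMeasure_map mX.aemeasurable, ?_, ?_, ?_⟩
      · rw [Measure.map_map (by fun_prop) mX]
        exact map_XX _ r1
      · rw [Measure.map_map (by fun_prop) mX]
        exact map_XX _ r2
      · rw [Measure.map_map (by fun_prop) mX]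
        exact map_XX _ r3
    · rw [lintegral_map measurable_cost mX,
        ← int_sum (u6.prod lam) _ _ _ (measurable_XX _) (measurable_XX _) (measurable_XX _)
          (map_XX _ r1) (map_XX _ r2) (map_XX _ r3)]
      apply lintegral_mono
      intro q
      simp only [XX, RR_J]
      exact (dual_attained _ _ _ q.2 (special_idx q.1)).ge
  · refine le_iInf₂ fun π hπ => ?_
    obtain ⟨-, h1, h2, h3⟩ := hπ
    exact KK_le π _ _ _ (by fun_prop) (by fun_prop) (by fun_prop) h1 h2 h3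

lemma not_monge : ¬ HasOptimalMongePlan mu := by
  rintro ⟨T2, T3, m2, m3, l2, l3, hopt⟩
  rw [kantorovich_mu] at hopt
  have hae := ae_of_opt mu (fun x => x) T2 T3 measurable_id m2 m3 Measure.map_id l2 l3 hopt
  have mapR : mu.map RR = ww.prod lam := by
    rw [mu, Measure.map_map measurable_RR measurable_J]
    have : RR ∘ J = id := funext RR_J
    rw [this, Measure.map_id]
  have pres : ∀ T : R3 → R3, Measurable T → mu.map T = mu →
      (ww.prod lam).map (fun z => RR (T (J z))) = ww.prod lam := by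
    intro T mT hT
    have e : (fun z => RR (T (J z))) = RR ∘ (T ∘ J) := rfl
    rw [e, ← Measure.map_map measurable_RR (mT.comp measurable_J), ← Measure.map_map mT measurable_J]
    change Measure.map RR (Measure.map T mu) = _
    rw [hT, mapR]
  refine no_monge lam (fun z => RR (T2 (J z))) (fun z => RR (T3 (J z)))
    (measurable_RR.comp (m2.comp measurable_J)) (measurable_RR.comp (m3.comp measurable_J))
    (pres T2 m2 l2) (pres T3 m3 l3) ?_
  have h := ae_of_ae_map measurable_J.aemeasurable hae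
  filter_upwards [h] with z hz
  simpa only [RR_J] using hz

end Vale.Agent.P121
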